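import Mathlib

/-!
# P219W: local comparison of measures, images under almost isometric maps
-/

set_option linter.all false

open scoped ENNReal NNReal Topology
open Set MeasureTheory Filter

namespace Vale.Agent.P219W21

/-- a local comparison with constants near one is a global comparison -/
theorem le_of_local {Y : Type*} [TopologicalSpace Y] [SecondCountableTopology Y] [MeasurableSpace Y]
    [OpensMeasurableSpace Y] (ν ρ : Measure Y) (m : ℕ) {s : Set Y} (hs : MeasurableSet s)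
    (h : ∀ c : ℝ≥0, 1 < c → ∀ y ∈ s, ∃ W ∈ 𝓝 y, ∀ t, MeasurableSet t → t ⊆ s → t ⊆ W →
      ν t ≤ (c : ℝ≥0∞) ^ m * ρ t) : ν s ≤ ρ s := by
  have k : ∀ c : ℝ≥0, 1 < c → ν s ≤ (c : ℝ≥0∞) ^ m * ρ s := by
    intro c hc
    rcases s.eq_empty_or_nonempty with rfl | hne
    · simp
    choose! W hW h1 using h c hc
    obtain ⟨T, hT, hc', hU⟩ := TopologicalSpace.countable_cover_nhdsWithin
      (f := fun y => interior (W y)) (s := s)
      fun y hy => mem_nhdsWithin_of_mem_nhds (interior_mem_nhds.2 (hW y hy))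
    have hTne : T.Nonempty := by
      obtain ⟨y, hy⟩ := hne
      obtain ⟨z, hz, -⟩ := mem_iUnion₂.1 (hU hy)
      exact ⟨z, hz⟩
    obtain ⟨u, rfl⟩ := hc'.exists_eq_range hTne
    have hm : ∀ i, MeasurableSet (s ∩ disjointed (fun i => interior (W (u i))) i) := fun i =>
      hs.inter (MeasurableSet.disjointed (fun i => isOpen_interior.measurableSet) i)
    have hd : Pairwise (Function.onFun Disjoint
        fun i => s ∩ disjointed (fun i => interior (W (u i))) i) := fun i j hij =>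
      (disjoint_disjointed _ hij).mono inter_subset_right inter_subset_right
    have e : s = ⋃ i, s ∩ disjointed (fun i => interior (W (u i))) i := by
      rw [← inter_iUnion, iUnion_disjointed, inter_eq_left.2 (by rwa [biUnion_range] at hU)]
    rw [e, measure_iUnion hd hm, measure_iUnion hd hm, ← ENNReal.tsum_mul_left]
    exact ENNReal.tsum_le_tsum fun i => h1 _ (hT ⟨i, rfl⟩) _ (hm i) inter_subset_left
      (inter_subset_right.trans ((disjointed_subset _ i).trans interior_subset))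
  have t : Tendsto (fun c : ℝ≥0 => (c : ℝ≥0∞) ^ m * ρ s) (𝓝[>] 1)
      (𝓝 (((1 : ℝ≥0) : ℝ≥0∞) ^ m * ρ s)) :=
    ENNReal.Tendsto.mul_const (((ENNReal.continuous_pow m).comp
      ENNReal.continuous_coe).continuousAt.tendsto.mono_left nhdsWithin_le_nhds) (.inl (by simp))
  rw [ENNReal.coe_one, one_pow, one_mul] at t
  exact ge_of_tendsto t (eventually_nhdsWithin_of_forall k)

/-- comparison of the images of a set under two maps -/
theorem image_le {Y X X' : Type*} [EMetricSpace X] [MeasurableSpace X] [BorelSpace X]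
    [EMetricSpace X'] [MeasurableSpace X'] [BorelSpace X'] {f : Y → X} {h : Y → X'} {t : Set Y}
    {K : ℝ≥0} (hK : ∀ x ∈ t, ∀ y ∈ t, edist (f x) (f y) ≤ K * edist (h x) (h y)) (k : ℕ) :
    (μHE[k] : Measure X) (f '' t) ≤ (K : ℝ≥0∞) ^ k * (μHE[k] : Measure X') (h '' t) := by
  rcases t.eq_empty_or_nonempty with rfl | ⟨y, -⟩
  · simp
  haveI : Nonempty Y := ⟨y⟩
  have a : ∀ x ∈ t, Function.invFunOn h t (h x) ∈ t ∧ h (Function.invFunOn h t (h x)) = h x :=
    fun x hx => Function.invFunOn_pos ⟨x, hx, rfl⟩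
  have b : ∀ x ∈ t, f (Function.invFunOn h t (h x)) = f x := fun x hx => by
    have := hK _ (a x hx).1 x hx
    rwa [(a x hx).2, edist_self, mul_zero, nonpos_iff_eq_zero, edist_eq_zero] at this
  have l : LipschitzOnWith K (fun z => f (Function.invFunOn h t z)) (h '' t) := by
    rintro _ ⟨x, hx, rfl⟩ _ ⟨y, hy, rfl⟩
    simp only [b x hx, b y hy]
    exact hK x hx y hy
  have := l.hausdorffMeasure_image_le (d := k) (by positivity)
  rw [image_image, image_congr b, ENNReal.rpow_natCast] at this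
  simp only [Measure.euclideanHausdorffMeasure_def, Measure.smul_apply, ENNReal.smul_def,
    smul_eq_mul]
  rw [mul_left_comm]
  exact mul_le_mul_right this _

/-- a strictly differentiable map with injective derivative is almost its derivative -/
theorem near_lin {E F : Type*} [NormedAddCommGroup E] [NormedSpace ℝ E] [FiniteDimensional ℝ E]
    [NormedAddCommGroup F] [NormedSpace ℝ F] {f : E → F} {L : E →L[ℝ] F} {y : E}
    (hf : HasStrictFDerivAt f L y) (hL : Function.Injective L) {c : ℝ≥0} (hc : 1 < c) :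
    ∃ W ∈ 𝓝 y, ∀ x ∈ W, ∀ z ∈ W, edist (f x) (f z) ≤ c * edist (L x) (L z) ∧
      edist (L x) (L z) ≤ c * edist (f x) (f z) := by
  obtain ⟨K, hK0, hK⟩ := (L : E →ₗ[ℝ] F).exists_antilipschitzWith (LinearMap.ker_eq_bot.2 hL)
  have c1 : (1 : ℝ) < c := hc
  have c0 : (0 : ℝ) < c := by linarith
  have K0 : (0 : ℝ) < K := hK0
  have e0 : 0 < (1 - 1 / (c : ℝ)) / K := div_pos (sub_pos.2 ((div_lt_one c0).2 c1)) K0
  have h1 := hf.isLittleO.def e0
  rw [nhds_prod_eq] at h1
  obtain ⟨W, hW, h2⟩ := mem_prod_self_iff.1 h1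
  refine ⟨W, hW, fun x hx z hz => ?_⟩
  have h3 : ‖f x - f z - L (x - z)‖ ≤ (1 - 1 / (c : ℝ)) / K * ‖x - z‖ := h2 (mk_mem_prod hx hz)
  have h4 : ‖x - z‖ ≤ K * ‖L (x - z)‖ := by
    simpa only [dist_eq_norm, map_sub, ContinuousLinearMap.coe_coe] using hK.le_mul_dist x z
  have h5 : ‖f x - f z - L (x - z)‖ ≤ (1 - 1 / (c : ℝ)) * ‖L (x - z)‖ := by
    refine h3.trans ((mul_le_mul_of_nonneg_left h4 e0.le).trans_eq ?_)
    field_simp
  have h6 := norm_sub_norm_le (f x - f z) (L (x - z))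
  have h7 := norm_sub_norm_le (L (x - z)) (f x - f z)
  rw [norm_sub_rev (L (x - z))] at h7
  have n := norm_nonneg (L (x - z))
  have i : c * (1 / (c : ℝ)) = 1 := by field_simp
  simp only [edist_dist, dist_eq_norm, ← map_sub, ← ENNReal.ofReal_coe_nnreal,
    ← ENNReal.ofReal_mul c.coe_nonneg]
  constructor <;> refine ENNReal.ofReal_le_ofReal ?_
  · have : 2 - 1 / (c : ℝ) ≤ c := by nlinarith [sq_nonneg ((c : ℝ) - 1), one_div_pos.2 c0]
    nlinarith
  · have h8 : 1 / (c : ℝ) * ‖L (x - z)‖ ≤ ‖f x - f z‖ := by linarith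
    have h9 := mul_le_mul_of_nonneg_left h8 c0.le
    rwa [← mul_assoc, i, one_mul] at h9

/-- the area formula from local comparisons -/
theorem area_abs {Y X : Type*} [TopologicalSpace Y] [PolishSpace Y] [MeasurableSpace Y]
    [BorelSpace Y] [TopologicalSpace X] [T2Space X] [MeasurableSpace X] [BorelSpace X]
    (μ : Measure X) (v : Measure Y) {φ : Y → X} {U s : Set Y} (hU : IsOpen U)
    (hφ : ContinuousOn φ U) (hi : InjOn φ U) (hs : MeasurableSet s) (hsU : s ⊆ U) {J : Y → ℝ}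
    (hJ : ∀ y ∈ U, ContinuousAt J y ∧ 0 < J y) (m : ℕ)
    (h : ∀ c : ℝ≥0, 1 < c → ∀ y ∈ U, ∃ W ∈ 𝓝 y, ∀ t, t ⊆ W →
      μ (φ '' t) ≤ (c : ℝ≥0∞) ^ m * (ENNReal.ofReal (J y) * v t) ∧
      ENNReal.ofReal (J y) * v t ≤ (c : ℝ≥0∞) ^ m * μ (φ '' t)) :
    μ (φ '' s) = ∫⁻ y in s, ENNReal.ofReal (J y) ∂v := by
  have me := hφ.measurableEmbedding hU.measurableSet hi
  let ν : Measure Y := (μ.comap (U.domRestrict φ)).map Subtype.val
  have hν : ∀ t, MeasurableSet t → t ⊆ s → ν t = μ (φ '' t) := fun t ht h1 => by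
    rw [Measure.map_apply measurable_subtype_coe ht, me.comap_apply, image_domRestrict,
      inter_eq_left.2 (h1.trans hsU)]
  have k : ∀ c : ℝ≥0, 1 < c → ∀ y ∈ s, ∃ W ∈ 𝓝 y, ∀ t, MeasurableSet t → t ⊆ s → t ⊆ W →
      ν t ≤ (c : ℝ≥0∞) ^ (m + 1) * v.withDensity (fun y => ENNReal.ofReal (J y)) t ∧
      v.withDensity (fun y => ENNReal.ofReal (J y)) t ≤ (c : ℝ≥0∞) ^ (m + 1) * ν t := by
    intro c hc y hy
    obtain ⟨W, hW, h1⟩ := h c hc y (hsU hy)
    obtain ⟨j1, j2⟩ := hJ y (hsU hy)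
    have c1 : (1 : ℝ) < c := hc
    have a1 : ∀ᶠ z in 𝓝 y, J z < c * J y := j1.eventually (gt_mem_nhds (by nlinarith))
    have a2 : ∀ᶠ z in 𝓝 y, J y < c * J z :=
      (continuousAt_const.mul j1).eventually (lt_mem_nhds (show J y < c * J y by nlinarith))
    refine ⟨_, inter_mem hW (a1.and a2), fun t ht t1 t2 => ?_⟩
    obtain ⟨b1, b2⟩ := h1 t (t2.trans inter_subset_left)
    have o : ∀ {p q : ℝ}, p < c * q → ENNReal.ofReal p ≤ c * ENNReal.ofReal q := fun hp => by
      rw [← ENNReal.ofReal_coe_nnreal, ← ENNReal.ofReal_mul c.coe_nonneg]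
      exact ENNReal.ofReal_le_ofReal hp.le
    rw [hν t ht t1, withDensity_apply _ ht, pow_succ, mul_assoc]
    constructor
    · refine b1.trans (mul_le_mul_right ?_ _)
      rw [← setLIntegral_const, ← lintegral_const_mul' _ _ ENNReal.coe_ne_top]
      exact setLIntegral_mono' ht fun z hz => o (t2 hz).2.2
    · rw [mul_assoc, mul_left_comm]
      refine le_trans ?_ (mul_le_mul_right b2 _)
      rw [← mul_assoc, ← setLIntegral_const]
      exact setLIntegral_mono' ht fun z hz => o (t2 hz).2.1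
  rw [← hν s hs subset_rfl, ← withDensity_apply _ hs]
  refine le_antisymm (le_of_local _ _ (m + 1) hs fun c hc y hy => ?_)
    (le_of_local _ _ (m + 1) hs fun c hc y hy => ?_) <;> obtain ⟨W, hW, h1⟩ := k c hc y hy
  · exact ⟨W, hW, fun t a b d => (h1 t a b d).1⟩
  · exact ⟨W, hW, fun t a b d => (h1 t a b d).2⟩

end Vale.Agent.P219W21
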