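import Vale.Agent.P219W.Rows
import Vale.Agent.P219W21.Abs

/-!
# P219W, row AF: the area formula for injective immersions
-/

set_option linter.all false
set_option maxSynthPendingDepth 3

open scoped Manifold ContDiff ENNReal NNReal RealInnerProductSpace Topology
open Set MeasureTheory Filter

namespace Vale.Agent.P219W21

open Vale.Agent.P255 (RMetric)
open Vale.Agent.P219.Co (E)
open Vale.Agent.P219.Mfd
open Vale.Agent.P219.H381 (pb isMetricOn_pb)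
open Vale.Agent.P219W

variable {n k : ℕ} {M : Type} [TopologicalSpace M] [ChartedSpace (E n) M]
  [IsManifold 𝓘(ℝ, E n) ∞ M] (g : RMetric (E n) M) (Ψ : E n ≃ₘ^∞⟮𝓘(ℝ, E n), 𝓘(ℝ, E n)⟯ M)
  {φ : E k → M} {U : Set (E k)} (hU : IsOpen U) (hφ : SmoothMapOn (E n) φ U) {y : E k}
include hU hφ

omit [IsManifold 𝓘(ℝ, E n) ∞ M] in
theorem cd_F (hy : y ∈ U) : ContDiffAt ℝ ∞ (Ψ.symm ∘ φ) y :=
  ((Ψ.symm.contMDiff _).comp y (hφ.contMDiffAt (hU.mem_nhds hy))).contDiffAt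

omit [IsManifold 𝓘(ℝ, E n) ∞ M] in
theorem mf_eq (hy : y ∈ U) (v : E k) : mfderiv 𝓘(ℝ, E k) 𝓘(ℝ, E n) φ y v =
    (mfderiv 𝓘(ℝ, E n) 𝓘(ℝ, E n) Ψ (Ψ.symm (φ y)) (fderiv ℝ (Ψ.symm ∘ φ) y v) : E n) := by
  have h1 := ((cd_F Ψ hU hφ hy).differentiableAt (by simp)).mdifferentiableAt
  have h2 := mfderiv_comp y ((Ψ.contMDiff ((Ψ.symm ∘ φ) y)).mdifferentiableAt (by simp)) h1
  have e : Ψ ∘ Ψ.symm ∘ φ = φ := funext fun x => Ψ.apply_symm_apply _
  rw [mfderiv_eq_fderiv] at h2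
  have h3 : (mfderiv 𝓘(ℝ, E k) 𝓘(ℝ, E n) (Ψ ∘ Ψ.symm ∘ φ) y : E k →L[ℝ] E n) =
      mfderiv 𝓘(ℝ, E k) 𝓘(ℝ, E n) φ y := by rw [e]
  exact congrArg (fun L : E k →L[ℝ] E n => L v) (h3.symm.trans h2)

theorem pull_eq (hy : y ∈ U) (v w : E k) : pullInner g φ y v w =
    pb g Ψ (Ψ.symm (φ y)) (fderiv ℝ (Ψ.symm ∘ φ) y v) (fderiv ℝ (Ψ.symm ∘ φ) y w) := by
  have k : ∀ (p q : M) (a b : E n), p = q → g.inner p a b = g.inner q a b := by
    rintro p _ a b rfl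
    rfl
  rw [pullInner, mf_eq Ψ hU hφ hy, mf_eq Ψ hU hφ hy]
  exact k _ _ _ _ (Ψ.apply_symm_apply _).symm

include Ψ in
theorem cont_J (hy : y ∈ U) : ContinuousAt (fun y => √(induced g φ y).det) y := by
  refine Real.continuous_sqrt.continuousAt.comp
    ((Continuous.matrix_det continuous_id).continuousAt.comp ?_)
  refine continuousAt_pi.2 fun i => continuousAt_pi.2 fun j => ?_
  have h1 := cd_F Ψ hU hφ hy
  have h2 := (h1.fderiv_right (m := ∞) (by simp)).continuousAt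
  have h3 := ((isMetricOn_pb Ψ g).contDiffAt (mem_univ ((Ψ.symm ∘ φ) y))).continuousAt.comp
    h1.continuousAt
  refine ((h3.clm_apply (h2.clm_apply (continuousAt_const (y := EuclideanSpace.single i 1)))).clm_apply
    (h2.clm_apply (continuousAt_const (y := EuclideanSpace.single j 1)))).congr ?_
  filter_upwards [hU.mem_nhds hy] with z hz
  exact (pull_eq g Ψ hU hφ hz _ _).symm

variable [T2Space M]

theorem J_eq (hy : y ∈ U) (N : Nice g (φ y) Ψ) : √(induced g φ y).det =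
    LinearMap.normDet (fderiv ℝ (Ψ.symm ∘ φ) y : E k →ₗ[ℝ] E n) := by
  have z : Ψ.symm (φ y) = 0 := by rw [← N.zero, Ψ.symm_apply_apply]
  have h := LinearMap.normDet_sq_eq_det_gram (fderiv ℝ (Ψ.symm ∘ φ) y : E k →ₗ[ℝ] E n)
    (EuclideanSpace.basisFun (Fin k) ℝ)
  rw [← Real.sqrt_sq (LinearMap.normDet_nonneg _)]
  congr 1
  refine Eq.trans (congrArg Matrix.det ?_) h.symm
  ext i j
  rw [induced, Matrix.of_apply, pull_eq g Ψ hU hφ hy, z, N.pb_zero, Matrix.gram_apply,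
    EuclideanSpace.basisFun_apply, EuclideanSpace.basisFun_apply]
  rfl

omit hU hφ in
/-- **row AF** -/
theorem af [MeasurableSpace M] [BorelSpace M] : AF g := by
  intro hN k φ U s hU hφ hi hd hs hsU
  have inj : ∀ y ∈ U, ∀ Ψ : E n ≃ₘ^∞⟮𝓘(ℝ, E n), 𝓘(ℝ, E n)⟯ M,
      Function.Injective (fderiv ℝ (Ψ.symm ∘ φ) y) := fun y hy Ψ v w h =>
    hd y hy (by rw [mf_eq Ψ hU hφ hy, mf_eq Ψ hU hφ hy, h])
  refine area_abs (rmeas g k) volume hU hφ.continuousOn hi hs hsU (fun y hy => ?_) (2 * k)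
    fun c hc y hy => ?_
  · obtain ⟨Ψ, N⟩ := hN (φ y)
    refine ⟨cont_J g Ψ hU hφ hy, ?_⟩
    rw [J_eq g Ψ hU hφ hy N]
    exact (LinearMap.normDet_nonneg _).lt_of_ne' fun h =>
      LinearMap.normDet_eq_zero_iff_ker_ne_bot.1 h (LinearMap.ker_eq_bot.2 (inj y hy Ψ))
  obtain ⟨Ψ, N⟩ := hN (φ y)
  have z : (Ψ.symm ∘ φ) y = 0 := by rw [Function.comp, ← N.zero, Ψ.symm_apply_apply]
  have h1 := cd_F Ψ hU hφ hy
  obtain ⟨W, hW, h2⟩ := near_lin (h1.hasStrictFDerivAt (by simp)) (inj y hy Ψ) hc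
  obtain ⟨δ, hδ, h3⟩ := N.rdist_le c hc
  have h4 : (Ψ.symm ∘ φ) ⁻¹' Metric.ball 0 δ ∈ 𝓝 y :=
    h1.continuousAt.preimage_mem_nhds (by rw [z]; exact Metric.ball_mem_nhds _ hδ)
  refine ⟨_, inter_mem hW h4, fun t ht => ?_⟩
  have a := LinearMap.euclideanHausdorffMeasure_image_eq_normDet_mul_volume
    (fderiv ℝ (Ψ.symm ∘ φ) y : E k →ₗ[ℝ] E n) t
  rw [finrank_euclideanSpace_fin] at a
  rw [J_eq g Ψ hU hφ hy N, ← a]
  have e : ∀ x, Ψ ((Ψ.symm ∘ φ) x) = φ x := fun x => Ψ.apply_symm_apply _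
  have c1 : (1 : ℝ≥0∞) ≤ c := by exact_mod_cast hc.le
  letI := riemSpace g
  rw [pow_mul, sq, ← ENNReal.coe_mul]
  constructor
  · refine image_le (f := φ) (fun x hx w hw => ?_) k
    have b := h3 _ (ht hx).2 _ (ht hw).2
    rw [e, e, ENNReal.ofReal_coe_nnreal] at b
    refine b.trans ?_
    rw [ENNReal.coe_mul, mul_assoc]
    exact mul_le_mul_right (h2 x (ht hx).1 w (ht hw).1).1 _
  · refine image_le (h := φ) (fun x hx w hw => ?_) k
    have b := N.le_rdist ((Ψ.symm ∘ φ) x) ((Ψ.symm ∘ φ) w)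
    rw [e, e] at b
    refine (h2 x (ht hx).1 w (ht hw).1).2.trans ?_
    rw [ENNReal.coe_mul]
    exact mul_le_mul' (le_mul_of_one_le_right' c1) b

end Vale.Agent.P219W21
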