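import Vale.Agent.P219W.Rows2
import Vale.Agent.P219W21.Abs

/-!
# P219W, row TWO2: hypersurfaces have no volume and positive area
-/

set_option linter.all false
set_option maxSynthPendingDepth 3

open scoped Manifold ContDiff ENNReal NNReal RealInnerProductSpace Topology
open Set MeasureTheory Filter

namespace Vale.Agent.P219W21

open Vale.Agent.P255 (RMetric)
open Vale.Agent.P219.Co (E)
open Vale.Agent.P219.Mfd
open Vale.Agent.P219W

/-- straightening of a regular zero set -/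
theorem straight {V : Type*} [NormedAddCommGroup V] [NormedSpace ℝ V] [FiniteDimensional ℝ V]
    {F : V → ℝ} {l : V →L[ℝ] ℝ} (hF : HasStrictFDerivAt F l 0) (h0 : F 0 = 0) (hl : l ≠ 0) :
    ∃ G : V → V, (∀ x, l (G x) = F x) ∧ map G (𝓝 0) = 𝓝 0 ∧ ∃ W ∈ 𝓝 (0 : V), ∀ x ∈ W, ∀ z ∈ W,
      edist (G x) (G z) ≤ (2 : ℝ≥0) * edist x z ∧ edist x z ≤ (2 : ℝ≥0) * edist (G x) (G z) := by
  haveI := FiniteDimensional.complete ℝ V
  obtain ⟨w, hw⟩ : ∃ w, l w ≠ 0 := by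
    by_contra h
    push Not at h
    exact hl (ContinuousLinearMap.ext h)
  have h1 : HasStrictFDerivAt (fun x => x + (F x - l x) • (l w)⁻¹ • w)
      ((ContinuousLinearEquiv.refl ℝ V : V ≃L[ℝ] V) : V →L[ℝ] V) 0 := by
    have := (hasStrictFDerivAt_id (𝕜 := ℝ) (0 : V)).add
      ((hF.sub l.hasStrictFDerivAt).smul_const ((l w)⁻¹ • w))
    rw [sub_self, ContinuousLinearMap.zero_smulRight, add_zero] at this
    exact this
  refine ⟨_, fun x => ?_, ?_, near_lin h1 (fun _ _ h => h) (by norm_num)⟩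
  · rw [map_add, map_smul, map_smul, smul_eq_mul, smul_eq_mul, inv_mul_cancel₀ hw]
    ring
  · have := h1.map_nhds_eq_of_equiv
    rwa [h0, map_zero, sub_self, zero_smul, add_zero] at this

/-- open pieces of a hyperplane have positive area -/
theorem plane_pos {n : ℕ} {l : E n →L[ℝ] ℝ} (hl : l ≠ 0) {N : Set (E n)} (hN : N ∈ 𝓝 0) :
    (μHE[n - 1] : Measure (E n)) (N ∩ {x | l x = 0}) ≠ 0 := by
  have h1 : Module.finrank ℝ (LinearMap.ker (l : E n →ₗ[ℝ] ℝ)) = n - 1 := by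
    have := Module.Dual.finrank_ker_add_one_of_ne_zero (f := (l : E n →ₗ[ℝ] ℝ))
      fun h => hl (ContinuousLinearMap.coe_injective h)
    rw [finrank_euclideanSpace_fin] at this
    omega
  have h2 := (isometry_subtype_coe (s := (LinearMap.ker (l : E n →ₗ[ℝ] ℝ) : Set (E n))))
    |>.euclideanHausdorffMeasure_image (d := n - 1) (Subtype.val ⁻¹' N)
  rw [Subtype.image_preimage_coe, inter_comm] at h2
  refine h2.trans_ne ?_
  rw [← h1]
  exact (Measure.measure_pos_of_mem_nhds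
    (μHE[Module.finrank ℝ (LinearMap.ker (l : E n →ₗ[ℝ] ℝ))] :
      Measure (LinearMap.ker (l : E n →ₗ[ℝ] ℝ)))
    ((continuous_subtype_val.continuousAt (x := 0)).preimage_mem_nhds hN)).ne'

variable {n : ℕ} {M : Type} [TopologicalSpace M] [T2Space M] [ChartedSpace (E n) M]
  [IsManifold 𝓘(ℝ, E n) ∞ M] (g : RMetric (E n) M) [MeasurableSpace M] [BorelSpace M]

/-- **row TWO2** -/
theorem two2 : TWO2 g := by
  intro hN S hS
  have key : ∀ p ∈ S, (∃ u ∈ 𝓝[S] p, rmeas g n u = 0) ∧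
      ∀ W : Set M, IsOpen W → p ∈ W → rmeas g (n - 1) (S ∩ W) ≠ 0 := by
    intro p hp
    obtain ⟨Ψ, N⟩ := hN p
    obtain ⟨U, f, hU, hpU, hf, hSU, hd⟩ := hS p hp
    have z : ∀ {W : Set M}, W ∈ 𝓝 p → Ψ ⁻¹' W ∈ 𝓝 0 := fun h =>
      Ψ.continuous.continuousAt.preimage_mem_nhds (by rwa [N.zero])
    have f1 : ContMDiffAt 𝓘(ℝ, E n) 𝓘(ℝ, ℝ) ∞ f (Ψ 0) := by
      rw [N.zero]
      exact hf.contMDiffAt (hU.mem_nhds hpU)
    have f2 := (f1.comp 0 (Ψ.contMDiff 0)).contDiffAt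
    have hz : ∀ x ∈ U, x ∈ S ↔ f x = 0 := fun x hx =>
      ⟨fun h => (hSU.subset ⟨h, hx⟩).2, fun h => (hSU.superset ⟨hx, h⟩).1⟩
    have hl : fderiv ℝ (f ∘ Ψ) 0 ≠ 0 := by
      intro h
      apply hd
      have h2 := mfderiv_comp 0 (f1.mdifferentiableAt (by simp))
        ((Ψ.contMDiff 0).mdifferentiableAt (by simp))
      rw [mfderiv_eq_fderiv, h] at h2
      rw [← N.zero]
      ext v
      obtain ⟨w, rfl⟩ := (Ψ.mfderivToContinuousLinearEquiv (by simp) 0).surjective v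
      exact (congrArg (fun L : E n →L[ℝ] ℝ => L w) h2).symm
    obtain ⟨G, g1, g2, W, hW, g3⟩ := straight (f2.hasStrictFDerivAt (by simp))
      (by rw [Function.comp, N.zero]; exact (hz p hpU).1 hp) hl
    obtain ⟨δ, hδ, h3⟩ := N.rdist_le (2 : ℝ≥0) (by norm_num)
    letI := riemSpace g
    refine ⟨?_, fun W' hW' hpW h => ?_⟩
    · have m : (W ∩ Metric.ball 0 δ) ∩ Ψ ⁻¹' U ∈ 𝓝 0 :=
        inter_mem (inter_mem hW (Metric.ball_mem_nhds _ hδ)) (z (hU.mem_nhds hpU))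
      refine ⟨Ψ '' (((W ∩ Metric.ball 0 δ) ∩ Ψ ⁻¹' U) ∩ Ψ ⁻¹' S), ?_, ?_⟩
      · rw [image_inter_preimage]
        refine inter_mem (mem_nhdsWithin_of_mem_nhds ?_) self_mem_nhdsWithin
        rw [← N.zero]
        exact Ψ.toHomeomorph.isOpenMap.image_mem_nhds m
      refine nonpos_iff_eq_zero.1 ((image_le (f := Ψ) (h := G) (K := 2 * 2)
        (fun x hx w hw => ?_) n).trans_eq ?_)
      · have b := h3 _ hx.1.1.2 _ hw.1.1.2
        rw [ENNReal.ofReal_coe_nnreal] at b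
        refine b.trans ?_
        rw [ENNReal.coe_mul, mul_assoc]
        exact mul_le_mul_right (g3 x hx.1.1.1 w hw.1.1.1).2 _
      · rw [EuclideanSpace.euclideanHausdorffMeasure_eq_volume, measure_mono_null ?_
          (Measure.addHaar_submodule volume (LinearMap.ker (fderiv ℝ (f ∘ Ψ) 0 : E n →ₗ[ℝ] ℝ))
            fun h => hl (ContinuousLinearMap.coe_injective (LinearMap.ker_eq_top.1 h))), mul_zero]
        rintro _ ⟨x, hx, rfl⟩
        exact (g1 x).trans ((hz _ hx.1.2).1 hx.2)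
    · have m : W ∩ Ψ ⁻¹' (W' ∩ U) ∈ 𝓝 0 :=
        inter_mem hW (z ((hW'.inter hU).mem_nhds ⟨hpW, hpU⟩))
      refine plane_pos hl (N := G '' (W ∩ Ψ ⁻¹' (W' ∩ U))) (by rw [← g2]; exact image_mem_map m)
        (nonpos_iff_eq_zero.1 ((measure_mono ?_).trans ((image_le (f := G) (h := Ψ) (K := 2)
        (t := (W ∩ Ψ ⁻¹' (W' ∩ U)) ∩ Ψ ⁻¹' S) (fun x hx w hw => ?_) (n - 1)).trans_eq ?_)))
      · rintro _ ⟨⟨x, hx, rfl⟩, h1⟩
        exact ⟨x, ⟨hx, (hz _ hx.2.2).2 ((g1 x).symm.trans h1)⟩, rfl⟩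
      · exact (g3 x hx.1.1 w hw.1.1).1.trans (mul_le_mul_right (N.le_rdist x w) _)
      · refine mul_eq_zero_of_right _ (measure_mono_null ?_ h)
        rintro _ ⟨x, hx, rfl⟩
        exact ⟨hx.2, hx.1.2.1⟩
  refine ⟨?_, fun p hp => (key p hp).2⟩
  rcases S.eq_empty_or_nonempty with rfl | ⟨p, -⟩
  · exact measure_empty
  obtain ⟨Ψ, -⟩ := hN p
  haveI := Ψ.toHomeomorph.symm.secondCountableTopology
  exact measure_null_of_locally_null S fun p hp => (key p hp).1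

end Vale.Agent.P219W21
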